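import Vale.Agent.P273.H442.B5
import Vale.Agent.P273.H768.T2lim

/-!
# P273, crew ASY0, (B5) in the literal form of helper768
-/

noncomputable section

namespace Vale.Agent.P273.H442

open Filter H95 H732 H562 H973 H578

/-- **(B5)** -/
theorem inB5 : H768.T2.InB5 := by
  intro R m S hS B p hG hy t k l hc d hd
  obtain ⟨C, c, -, hc0, h⟩ := same442 hS hG hy hc hd
  refine ⟨C, c, hc0, ?_⟩
  filter_upwards [h] with N hN h1 h2 _
  exact hN h1 h2

end Vale.Agent.P273.H442

end
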