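import Vale.Agent.P273.H738.Inst
import Vale.Agent.P273.H732.EulB
import Vale.Agent.P273.H422.GenAdm
import Vale.Agent.P273.H469.SepDef
import Vale.Agent.P273.H578.CutG

/-!
# P273, crew ASY0, (B5): two marks of the same component of the limit

Along the dilated points `e_N = dpt B N p` of a generic point two marks of the same component have
the same logarithmic derivative in the directions of the limit, up to `C exp (- c N)`.
-/

set_option linter.unusedSectionVars false

noncomputable section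

namespace Vale.Agent.P273.H442

open Set Filter H95 H732 H562 H973
open scoped Topology

/-! ### exponentially small functions -/

/-- exponentially small -/
def ES442 (f : ℝ → ℝ) : Prop :=
  ∃ C c : ℝ, 0 ≤ C ∧ 0 < c ∧ ∀ᶠ N in atTop, f N ≤ C * Real.exp (-(c * N))

theorem ES442.mono {f g : ℝ → ℝ} (hg : ES442 g) (h : ∀ᶠ N in atTop, f N ≤ g N) : ES442 f := by
  obtain ⟨C, c, hC, hc, h1⟩ := hg
  exact ⟨C, c, hC, hc, by filter_upwards [h, h1] with N a b using a.trans b⟩

theorem ES442.add {f g : ℝ → ℝ} (hf : ES442 f) (hg : ES442 g) : ES442 fun N => f N + g N := by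
  obtain ⟨C, c, hC, hc, h⟩ := hf
  obtain ⟨D, d, hD, hd, h'⟩ := hg
  refine ⟨C + D, min c d, by positivity, lt_min hc hd, ?_⟩
  filter_upwards [h, h', eventually_ge_atTop 0] with N a b hN
  have e1 : Real.exp (-(c * N)) ≤ Real.exp (-(min c d * N)) :=
    Real.exp_le_exp.2 (by nlinarith [min_le_left c d])
  have e2 : Real.exp (-(d * N)) ≤ Real.exp (-(min c d * N)) :=
    Real.exp_le_exp.2 (by nlinarith [min_le_right c d])
  nlinarith

theorem ES442.const_mul {f : ℝ → ℝ} (hf : ES442 f) {a : ℝ} (ha : 0 ≤ a) :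
    ES442 fun N => a * f N := by
  obtain ⟨C, c, hC, hc, h⟩ := hf
  refine ⟨a * C, c, by positivity, hc, ?_⟩
  filter_upwards [h] with N hN
  calc a * f N ≤ a * (C * Real.exp (-(c * N))) := mul_le_mul_of_nonneg_left hN ha
    _ = _ := by ring

theorem ES442.sq {f : ℝ → ℝ} (hf : ES442 f) (h0 : ∀ N, 0 ≤ f N) : ES442 fun N => f N ^ 2 := by
  obtain ⟨C, c, hC, hc, h⟩ := hf
  refine ⟨C ^ 2, 2 * c, by positivity, by positivity, ?_⟩
  filter_upwards [h] with N hN
  have e : Real.exp (-(2 * c * N)) = Real.exp (-(c * N)) ^ 2 := by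
    rw [← Real.exp_nat_mul]; congr 1; push_cast; ring
  rw [e, ← mul_pow]
  have := h0 N
  gcongr

theorem es442_exp {a : ℝ} (b : ℝ) (ha : 0 < a) : ES442 fun N => Real.exp (-(a * N) + b) := by
  refine ⟨Real.exp b, a, (Real.exp_pos _).le, ha, Eventually.of_forall fun N => ?_⟩
  show Real.exp (-(a * N) + b) ≤ _
  rw [Real.exp_add, mul_comm]

theorem ES442.ev {f : ℝ → ℝ} (hf : ES442 f) {ε : ℝ} (hε : 0 < ε) :
    ∀ᶠ N in atTop, f N ≤ ε := by
  obtain ⟨C, c, -, hc, h⟩ := hf
  have h1 : Tendsto (fun N : ℝ => C * Real.exp (-(c * N))) atTop (𝓝 (C * 0)) :=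
    (Real.tendsto_exp_neg_atTop_nhds_zero.comp (tendsto_id.const_mul_atTop hc)).const_mul C
  rw [mul_zero] at h1
  filter_upwards [h, h1.eventually (gt_mem_nhds hε)] with N a b using a.trans b.le

/-! ### off the discs -/

section off

variable {E : Type*} [NormedAddCommGroup E] [NormedSpace ℝ E]

theorem off_aux442 (lX lY : E →L[ℝ] ℂ) {σ : ℂ} (hσ : σ ^ 2 = 1) {p : E}
    (h : ‖H738.qq lX lY p‖ ≤ 1 / 2) :
    1 / 8 * ‖H738.dd lX lY p‖ ≤ ‖H738.zz lX lY p - σ * H738.dd lX lY p‖ := by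
  rw [H738.norm_geo lX lY hσ, ← H738.X_mul_qq, norm_mul]
  have h1 : 1 / 2 ≤ ‖1 - σ * H738.qq lX lY p‖ := by
    have h2 : ‖(1 : ℂ)‖ - ‖σ * H738.qq lX lY p‖ ≤ ‖1 - σ * H738.qq lX lY p‖ :=
      norm_sub_norm_le _ _
    rw [norm_mul, H738.norm_sig hσ, one_mul, norm_one] at h2
    linarith
  have h3 : (1 / 2) ^ 2 ≤ ‖1 - σ * H738.qq lX lY p‖ ^ 2 := by gcongr
  have h4 := norm_nonneg (Complex.exp (lX p))
  have h5 : ‖Complex.exp (lX p)‖ * ‖H738.qq lX lY p‖ ≤ ‖Complex.exp (lX p)‖ * (1 / 2) := by gcongr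
  nlinarith

theorem off_aux442' (lX lY : E →L[ℝ] ℂ) {σ : ℂ} (hσ : σ ^ 2 = 1) {p : E}
    (h : ‖H738.qq lX lY p‖ ≤ 1 / 2 ∨ ‖H738.qq lX lY p‖⁻¹ ≤ 1 / 2) :
    1 / 8 * ‖H738.dd lX lY p‖ ≤ ‖H738.zz lX lY p - σ * H738.dd lX lY p‖ := by
  rcases h with h | h
  · exact off_aux442 lX lY hσ h
  · have h2 := off_aux442 lY lX hσ (p := p) (by rw [H738.qq_symm, norm_inv]; exact h)
    rwa [H738.dd_symm, H738.zz_symm] at h2

end off

/-! ### the chart -/

variable {R : H95.Region} {m : ∀ k, Fin (R.n k + 1)}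

theorem rootsL_eq442 (q : Co R m) : rootsL q.2.2.1 q.2.2.2.1 = H738.rt6 R m q := by
  funext i
  have h : ∀ l : Fin 3, H738.hd (1 / 16) (H738.le3 R m) l q =
      (1 / 16 : ℂ) * Complex.exp ((-(q.2.2.1 l : ℂ) + (q.2.2.2.1 l : ℂ) * Complex.I) / 2) := by
    intro l
    unfold H738.hd
    rw [H738.le3_eq]
  unfold H738.rt6 H738.rts rootsL H828.th
  rw [h]
  fin_cases i <;> simp [H738.kp, H738.sg6, ctr] <;> norm_num <;> ring

/-- the point of a mark and the roots, as functions on the chart -/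
theorem sub_root442 (S : L → Bool) (t : Bool) (k : Fin 7) (hS : S (k, t) = false) (i : Fin 6) :
    (fun q : Co R m => (PP S t (posE R m q) (shE R m S q) k).1 - (posE R m q).1 i) =
      fun q => H738.tm m q (k, t) i := by
  funext q
  have h1 : (posE R m q).1 i = H738.rt6 R m q i := congrFun (rootsL_eq442 q) i
  rw [h1]
  unfold PP Xp
  simp only [hS, Bool.false_eq_true, if_false]
  rfl

theorem logN_of_near442 {S : L → Bool} {t : Bool} {k : Fin 7} (hS : S (k, t) = false)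
    {q v : Co R m} {ζ : ℂ} {ρ : ℝ}
    (h : H738.Near (H738.tm m q (k, t)) (fun i => H738.Tm m q (k, t) i v) ζ ρ) :
    H578.LogN (fun q => (posE R m q).1) (fun q => PP S t (posE R m q) (shE R m S q) k) q v ζ ρ := by
  intro i
  have h1 := h i
  have h2 : ∀ i, (PP S t (posE R m q) (shE R m S q) k).1 - (posE R m q).1 i =
      H738.tm m q (k, t) i := fun i => congrFun (sub_root442 S t k hS i) q
  show ‖fderiv ℝ (fun q : Co R m => (PP S t (posE R m q) (shE R m S q) k).1 -
    (posE R m q).1 i) q v - ζ * ((PP S t (posE R m q) (shE R m S q) k).1 - (posE R m q).1 i)‖ ≤ _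
  rw [sub_root442 S t k hS i, (H738.hasFDerivAt_tm m q (k, t) i).fderiv]
  simp only [h2]
  exact h1

theorem LogN442.mono {b : Co R m → Fin 6 → ℂ} {P : Co R m → ℂ × ℂ} {q v : Co R m} {ζ : ℂ} {ρ ρ' : ℝ}
    (h : H578.LogN b P q v ζ ρ) (hρ : ρ ≤ ρ') : H578.LogN b P q v ζ ρ' := by
  intro i
  refine (h i).trans ?_
  have h1 : 0 ≤ qs fun i => (P q).1 - b q i := qs_nonneg _
  have h2 : 0 ≤ ‖(P q).1 - b q i‖ ^ 3 := by positivity
  exact mul_le_mul_of_nonneg_right (mul_le_mul_of_nonneg_right hρ h2) h1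

/-! ### directions of the limit -/

section dirs

variable {B : Set (W R m).Fr} {p : Co R m}

theorem vec_dpt442 (d : BDir R m) {N : ℝ} (hN : N ≠ 0) :
    d.vec R m B ((W R m).dpt B N p) = d.vec R m B p := by
  cases d with
  | u f => rfl
  | ph f => rfl
  | al k => rfl
  | eul k => exact (W R m).eulB_dpt B hN p k

theorem szl_pos_free442 (hp : (W R m).Pos B p) {f : (W R m).Fr} (hf : f ∈ B) :
    0 < szl R m B p f.1 := by
  classical
  have h := (W R m).szB_free B p f
  rw [if_pos hf] at h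
  have h2 : szl R m B p f.1 = p.1 f := h
  rw [h2]
  exact hp.1 f hf

theorem szl_pos_last442 (hp : (W R m).Pos B p) (k : Fin 3) :
    0 < szl R m B p ((W R m).last k) := by
  have h2 : szl R m B p ((W R m).last k) = (W R m).ulB B p k := (W R m).szB_last B p k
  rw [h2]
  exact (W R m).ulB_pos hp k

theorem szl_nonneg442 (hp : (W R m).Pos B p) (g : Σ k, Fin (R.n k + 1)) :
    0 ≤ szl R m B p g := by
  classical
  by_cases h : g ≠ (W R m).last ((W R m).nk g)
  · have h2 : szl R m B p g = if (⟨g, h⟩ : (W R m).Fr) ∈ B then p.1 ⟨g, h⟩ else 0 :=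
      (W R m).szB_free B p ⟨g, h⟩
    rw [h2]
    split_ifs with h3
    · exact (hp.1 _ h3).le
    · exact le_rfl
  · rw [not_not.1 h]
    exact (szl_pos_last442 hp _).le

theorem Z_zero442 (hp : (W R m).Pos B p) (hy : ∀ k, 0 < p.2.2.1 k) {d : BDir R m}
    (hd : d.ok R m B) {g : Σ k, Fin (R.n k + 1)} (hg : szl R m B p g = 0) :
    (W R m).Z (d.vec R m B p) g = 0 := by
  have hl : ∀ k, g ≠ (W R m).last k := fun k h => by
    have := szl_pos_last442 hp k
    rw [← h, hg] at this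
    exact lt_irrefl _ this
  cases d with
  | u f =>
    have hf : g ≠ f.1 := fun h => by
      have := szl_pos_free442 hp (f := f) hd
      rw [← h, hg] at this
      exact lt_irrefl _ this
    show (W R m).Z ((W R m).vec (.u f)) g = 0
    rw [(W R m).Z_vec_u f g, if_neg hf, if_neg (hl _)]
  | ph f =>
    have hf : g ≠ f.1 := fun h => by
      have := szl_pos_free442 hp (f := f) hd
      rw [← h, hg] at this
      exact lt_irrefl _ this
    show (W R m).Z ((W R m).vec (.ph f)) g = 0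
    rw [(W R m).Z_vec_ph f g, if_neg hf, if_neg (hl _)]
  | al k =>
    show (W R m).Z ((W R m).vec (.al k)) g = 0
    rw [(W R m).Z_vec_al k g, if_neg (hl _)]
  | eul k =>
    show (W R m).Z ((W R m).eulB B p k) g = 0
    have h2 : (W R m).szB B p g = 0 := hg
    rw [(W R m).Z_eulB B p (hy k).ne' g, h2]
    simp

theorem norm_lS_dir442 (hp : (W R m).Pos B p) (hy : ∀ k, 0 < p.2.2.1 k) (d : BDir R m)
    {T : Finset (Σ k, Fin (R.n k + 1))} {k' : Fin 3} (hT : T ⊆ (W R m).neck k') :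
    ‖(W R m).lS T (d.vec R m B p)‖ ≤ 1 := by
  cases d with
  | u f => exact (W R m).norm_lS_vec_le T (.u f)
  | ph f => exact (W R m).norm_lS_vec_le T (.ph f)
  | al k => exact (W R m).norm_lS_vec_le T (.al k)
  | eul k =>
    show ‖(W R m).lS T ((W R m).eulB B p k)‖ ≤ 1
    by_cases hk : k' = k
    · subst hk
      rw [(W R m).lS_eulB B hT p (hy k').ne', norm_neg, Complex.norm_real, Real.norm_eq_abs]
      have h1 : ∑ g ∈ T, (W R m).szB B p g ≤ p.2.2.1 k' := by
        have h2 := (W R m).sum_szB B p k'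
        rw [← Finset.sum_filter] at h2
        rw [← h2]
        exact Finset.sum_le_sum_of_subset_of_nonneg hT fun g _ _ => szl_nonneg442 hp g
      have h3 : 0 ≤ ∑ g ∈ T, (W R m).szB B p g :=
        Finset.sum_nonneg fun g _ => szl_nonneg442 hp g
      rw [abs_of_nonneg (div_nonneg h3 (hy k').le)]
      exact (div_le_one (hy k')).2 h1
    · rw [(W R m).lS_eulB_of_disjoint B _ p (hy k).ne']
      · simp
      · rw [Finset.disjoint_left]
        intro g hg hg'
        exact hk (((W R m).mem_neck.1 (hT hg)).symm.trans ((W R m).mem_neck.1 hg'))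

theorem dir1_dir442 (hp : (W R m).Pos B p) (hy : ∀ k, 0 < p.2.2.1 k) (d : BDir R m) {j : L}
    {k : Fin 3} (h : R.pl j = Sum.inl k) :
    H738.Dir1 (H738.le3 R m) (H738.mX m h) (H738.mY m h) (d.vec R m B p) where
  X := norm_lS_dir442 hp hy d (wreg.bef_subset m k _)
  Y := norm_lS_dir442 hp hy d (wreg.aft_subset m k _)
  e _ := norm_lS_dir442 hp hy d subset_rfl

/-- the directions of the limit do not move the core marks -/
theorem dir_core442 (d : BDir R m) : (d.vec R m B p).2.2.2.2 = 0 := by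
  cases d <;> rfl

/-! depths -/

theorem sum_aft442 {j : L} {k : Fin 3} (h : R.pl j = Sum.inl k) :
    ∑ g ∈ wreg.aft R.n k (rkF R h), szl R m B p g = p.2.2.1 k - depl R m B p h := by
  have h2 := (W R m).sum_szB B p k
  rw [← Finset.sum_filter] at h2
  have h3 : Finset.univ.filter (fun g => (W R m).nk g = k) = (W R m).neck k := rfl
  rw [h3, ← Finset.sum_sdiff (wreg.bef_subset m k (rkF R h)), wreg.sdiff_bef] at h2
  have h4 : ∑ g ∈ wreg.aft R.n k (rkF R h), szl R m B p g + depl R m B p h = p.2.2.1 k := h2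
  linarith

theorem depl_nonneg442 (hp : (W R m).Pos B p) {j : L} {k : Fin 3} (h : R.pl j = Sum.inl k) :
    0 ≤ depl R m B p h := Finset.sum_nonneg fun g _ => szl_nonneg442 hp g

theorem depl_le442 (hp : (W R m).Pos B p) {j : L} {k : Fin 3} (h : R.pl j = Sum.inl k) :
    depl R m B p h ≤ p.2.2.1 k := by
  have h1 := sum_aft442 (B := B) (p := p) h
  have h2 : 0 ≤ ∑ g ∈ wreg.aft R.n k (rkF R h), szl R m B p g :=
    Finset.sum_nonneg fun g _ => szl_nonneg442 hp g
  linarith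

theorem mX_zero442 (hp : (W R m).Pos B p) (hy : ∀ k, 0 < p.2.2.1 k) {d : BDir R m}
    (hd : d.ok R m B) {j : L} {k : Fin 3} (h : R.pl j = Sum.inl k) (h0 : depl R m B p h = 0) :
    H738.mX m h (d.vec R m B p) = 0 := by
  have h1 := (Finset.sum_eq_zero_iff_of_nonneg fun g _ => szl_nonneg442 hp g).1 h0
  show (W R m).lS (wreg.bef R.n k (rkF R h)) (d.vec R m B p) = 0
  rw [Reg.lS_apply]
  exact Finset.sum_eq_zero fun g hg => Z_zero442 hp hy hd (h1 g hg)

theorem mY_zero442 (hp : (W R m).Pos B p) (hy : ∀ k, 0 < p.2.2.1 k) {d : BDir R m}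
    (hd : d.ok R m B) {j : L} {k : Fin 3} (h : R.pl j = Sum.inl k)
    (h0 : depl R m B p h = p.2.2.1 k) : H738.mY m h (d.vec R m B p) = 0 := by
  have h2 := sum_aft442 (B := B) (p := p) h
  rw [h0, sub_self] at h2
  have h1 := (Finset.sum_eq_zero_iff_of_nonneg fun g _ => szl_nonneg442 hp g).1 h2
  show (W R m).lS (wreg.aft R.n k (rkF R h)) (d.vec R m B p) = 0
  rw [Reg.lS_apply]
  exact Finset.sum_eq_zero fun g hg => Z_zero442 hp hy hd (h1 g hg)

theorem mX_eq442 (hp : (W R m).Pos B p) (hy : ∀ k, 0 < p.2.2.1 k) {d : BDir R m}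
    (hd : d.ok R m B) {j j' : L} {k : Fin 3} (h : R.pl j = Sum.inl k) (h' : R.pl j' = Sum.inl k)
    (h0 : depl R m B p h = depl R m B p h') :
    H738.mX m h (d.vec R m B p) = H738.mX m h' (d.vec R m B p) := by
  have key : ∀ {j j' : L} (h : R.pl j = Sum.inl k) (h' : R.pl j' = Sum.inl k),
      depl R m B p h = depl R m B p h' → R.rk j ≤ R.rk j' →
        H738.mX m h (d.vec R m B p) = H738.mX m h' (d.vec R m B p) := by
    intro j j' h h' h0 hle
    have hs : wreg.bef R.n k (rkF R h) ⊆ wreg.bef R.n k (rkF R h') := by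
      intro g hg
      obtain ⟨a, ha, rfl⟩ := wreg.mem_bef.1 hg
      refine wreg.mem_bef.2 ⟨a, ?_, rfl⟩
      rw [Fin.le_def] at ha ⊢
      exact ha.trans hle
    show (W R m).lS (wreg.bef R.n k (rkF R h)) (d.vec R m B p) =
      (W R m).lS (wreg.bef R.n k (rkF R h')) (d.vec R m B p)
    rw [Reg.lS_apply, Reg.lS_apply, ← Finset.sum_sdiff hs]
    have h1 : ∑ g ∈ wreg.bef R.n k (rkF R h') \ wreg.bef R.n k (rkF R h), szl R m B p g = 0 := by
      have h2 := Finset.sum_sdiff (f := fun g => szl R m B p g) hs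
      have h3 : depl R m B p h = ∑ g ∈ wreg.bef R.n k (rkF R h), szl R m B p g := rfl
      have h4 : depl R m B p h' = ∑ g ∈ wreg.bef R.n k (rkF R h'), szl R m B p g := rfl
      rw [← h3, ← h4] at h2
      linarith
    have h5 := (Finset.sum_eq_zero_iff_of_nonneg fun g _ => szl_nonneg442 hp g).1 h1
    have h6 : ∑ g ∈ wreg.bef R.n k (rkF R h') \ wreg.bef R.n k (rkF R h),
        (W R m).Z (d.vec R m B p) g = 0 :=
      Finset.sum_eq_zero fun g hg => Z_zero442 hp hy hd (h5 g hg)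
    rw [h6, zero_add]
  rcases le_total (R.rk j) (R.rk j') with hle | hle
  · exact key h h' h0 hle
  · exact (key h' h h0.symm hle).symm

theorem mY_eq442 (hp : (W R m).Pos B p) (hy : ∀ k, 0 < p.2.2.1 k) {d : BDir R m}
    (hd : d.ok R m B) {j j' : L} {k : Fin 3} (h : R.pl j = Sum.inl k) (h' : R.pl j' = Sum.inl k)
    (h0 : depl R m B p h = depl R m B p h') :
    H738.mY m h (d.vec R m B p) = H738.mY m h' (d.vec R m B p) := by
  have e1 := H738.mX_add_mY m h (d.vec R m B p)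
  have e2 := H738.mX_add_mY m h' (d.vec R m B p)
  rw [mX_eq442 hp hy hd h h' h0] at e1
  exact add_left_cancel (e1.trans e2.symm)

end dirs

/-! ### marks of the necks -/

section neck

theorem adm738_442 {S : L → Bool} {N₀ : ℝ} {q : Co R m} (hN : 0 ≤ N₀) (hq : Adm R m S N₀ q) :
    H738.Adm m q :=
  ⟨hq.1, fun k => (W R m).ul_nonneg hq.1 k (hN.trans (hq.2.1 k))⟩

theorem hoff442 {q : Co R m} {j : L} {k : Fin 3} (h : R.pl j = Sum.inl k)
    (hq : ‖H738.qq (H738.mX m h) (H738.mY m h) q‖ ≤ 1 / 2 ∨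
      ‖H738.qq (H738.mX m h) (H738.mY m h) q‖⁻¹ ≤ 1 / 2) (i : Fin 6) (hi : H738.kp i = k) :
    1 / 8 * ‖H738.hd (1 / 16) (H738.le3 R m) k q‖ ≤
      ‖R.pos (H738.ppt R m q) j - H738.rt6 R m q i‖ := by
  have e1 : ctr k + 1 / 16 * H738.zz (H738.mX m h) (H738.mY m h) q - H738.rt6 R m q i =
      1 / 16 * (H738.zz (H738.mX m h) (H738.mY m h) q -
        H738.sg6 i * H738.dd (H738.mX m h) (H738.mY m h) q) :=
    H738.t_near (fun q => H738.mX_add_mY m h q) hi q
  have e2 : H738.hd (1 / 16) (H738.le3 R m) k q =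
      1 / 16 * H738.dd (H738.mX m h) (H738.mY m h) q :=
    H738.hd_eq (fun q => H738.mX_add_mY m h q) q
  have h16 : ‖(1 / 16 : ℂ)‖ = 1 / 16 := by norm_num
  rw [H738.pos_ppt_neck m h, e1, e2, norm_mul, norm_mul, h16]
  have h1 := off_aux442' (H738.mX m h) (H738.mY m h) (H738.sg6_sq i) hq
  linarith

variable {q : Co R m} {j : L} {k : Fin 3}

theorem near_rigid_X442 (A : H738.Adm m q) (h : R.pl j = Sum.inl k)
    (hq : ‖H738.qq (H738.mX m h) (H738.mY m h) q‖ ≤ 1 / 2 ∨
      ‖H738.qq (H738.mX m h) (H738.mY m h) q‖⁻¹ ≤ 1 / 2) {w : Co R m}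
    (D : H738.Dir1 (H738.le3 R m) (H738.mX m h) (H738.mY m h) w) :
    H738.Near (H738.tm m q j) (fun i => H738.Tm m q j i w) (H738.mX m h w)
      (8 * Real.exp (wreg.dep m q k (rkF R h) - q.2.2.1 k / 2) +
        5 / 2 * (Real.exp (-wreg.dep m q k (rkF R h)) +
          Real.exp (-(q.2.2.1 k - wreg.dep m q k (rkF R h)))) ^ 2) := by
  obtain ⟨i₀, hi₀⟩ : ∃ i, H738.kp i = k := by
    fin_cases k
    · exact ⟨0, by decide⟩
    · exact ⟨2, by decide⟩
    · exact ⟨4, by decide⟩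
  have k1 := (H738.neckPt A h (hoff442 h hq)).rigid_X D hi₀
  rw [H738.norm_qq_mark h, H738.norm_X_mark h, H738.norm_Y_mark h] at k1
  intro i
  have k2 := k1 i
  simp only [← H738.tm_neck, ← H738.Tm_neck] at k2
  norm_num at k2 ⊢
  exact k2

theorem near_rigid_Y442 (A : H738.Adm m q) (h : R.pl j = Sum.inl k)
    (hq : ‖H738.qq (H738.mX m h) (H738.mY m h) q‖ ≤ 1 / 2 ∨
      ‖H738.qq (H738.mX m h) (H738.mY m h) q‖⁻¹ ≤ 1 / 2) {w : Co R m}
    (D : H738.Dir1 (H738.le3 R m) (H738.mX m h) (H738.mY m h) w) :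
    H738.Near (H738.tm m q j) (fun i => H738.Tm m q j i w) (H738.mY m h w)
      (8 * Real.exp (q.2.2.1 k / 2 - wreg.dep m q k (rkF R h)) +
        5 / 2 * (Real.exp (-wreg.dep m q k (rkF R h)) +
          Real.exp (-(q.2.2.1 k - wreg.dep m q k (rkF R h)))) ^ 2) := by
  obtain ⟨i₀, hi₀⟩ : ∃ i, H738.kp i = k := by
    fin_cases k
    · exact ⟨0, by decide⟩
    · exact ⟨2, by decide⟩
    · exact ⟨4, by decide⟩
  have k1 := (H738.neckPt A h (hoff442 h hq)).rigid_Y D hi₀
  rw [H738.norm_qq_mark h, H738.norm_X_mark h, H738.norm_Y_mark h, ← Real.exp_neg, neg_sub] at k1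
  intro i
  have k2 := k1 i
  simp only [← H738.tm_neck, ← H738.Tm_neck] at k2
  norm_num at k2 ⊢
  exact k2

theorem near_still_X442 (A : H738.Adm m q) (h : R.pl j = Sum.inl k)
    (hq : ‖H738.qq (H738.mX m h) (H738.mY m h) q‖ ≤ 1 / 2 ∨
      ‖H738.qq (H738.mX m h) (H738.mY m h) q‖⁻¹ ≤ 1 / 2) {w : Co R m}
    (D : H738.Dir1 (H738.le3 R m) (H738.mX m h) (H738.mY m h) w) (h0 : H738.mX m h w = 0)
    {r : ℝ} (hr : ∀ l, Real.exp (-(q.2.2.1 l) / 2) ≤ r) :
    H738.Near (H738.tm m q j) (fun i => H738.Tm m q j i w) 0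
      (8 * Real.exp (wreg.dep m q k (rkF R h) - q.2.2.1 k / 2) +
        (Real.exp (-(q.2.2.1 k - wreg.dep m q k (rkF R h))) + r)) := by
  have k1 := (H738.neckPt A h (hoff442 h hq)).still_X D h0 (r := r) (fun l => by
    have h1 := hr l
    have h2 : 0 ≤ Real.exp (-(q.2.2.1 l) / 2) := (Real.exp_pos _).le
    change ‖H738.hd (1 / 16) (H738.le3 R m) l q‖ ≤ r
    rw [H738.norm_hd_eq]; linarith)
  rw [H738.norm_qq_mark h, H738.norm_Y_mark h] at k1
  intro i
  have k2 := k1 i
  simp only [← H738.tm_neck, ← H738.Tm_neck, div_one] at k2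
  exact k2

theorem near_still_Y442 (A : H738.Adm m q) (h : R.pl j = Sum.inl k)
    (hq : ‖H738.qq (H738.mX m h) (H738.mY m h) q‖ ≤ 1 / 2 ∨
      ‖H738.qq (H738.mX m h) (H738.mY m h) q‖⁻¹ ≤ 1 / 2) {w : Co R m}
    (D : H738.Dir1 (H738.le3 R m) (H738.mX m h) (H738.mY m h) w) (h0 : H738.mY m h w = 0)
    {r : ℝ} (hr : ∀ l, Real.exp (-(q.2.2.1 l) / 2) ≤ r) :
    H738.Near (H738.tm m q j) (fun i => H738.Tm m q j i w) 0
      (8 * Real.exp (q.2.2.1 k / 2 - wreg.dep m q k (rkF R h)) +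
        (Real.exp (-wreg.dep m q k (rkF R h)) + r)) := by
  have k1 := (H738.neckPt A h (hoff442 h hq)).still_Y D h0 (r := r) (fun l => by
    have h1 := hr l
    have h2 : 0 ≤ Real.exp (-(q.2.2.1 l) / 2) := (Real.exp_pos _).le
    change ‖H738.hd (1 / 16) (H738.le3 R m) l q‖ ≤ r
    rw [H738.norm_hd_eq]; linarith)
  rw [H738.norm_qq_mark h, H738.norm_X_mark h, ← Real.exp_neg, neg_sub] at k1
  intro i
  have k2 := k1 i
  simp only [← H738.tm_neck, ← H738.Tm_neck, div_one] at k2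
  exact k2

end neck

/-! ### marks of the cores -/

section core

/-- the coordinate of a core mark -/
def cpr442 (R : H95.Region) (m : ∀ k, Fin (R.n k + 1)) (c : R.Cm) : Co R m →L[ℝ] ℂ :=
  (ContinuousLinearMap.proj c : (R.Cm → ℂ) →L[ℝ] ℂ).comp (wreg R.n m).sc

theorem cpr442_apply (c : R.Cm) (q : Co R m) : cpr442 R m c q = q.2.2.2.2 c := rfl

theorem core_logN442 {q v : Co R m} {S : L → Bool} {t : Bool} {k : Fin 7} {s : Bool}
    (h : R.pl (k, t) = Sum.inr s) (hz : q.2.2.2.2 ∈ H975.zone R S (1 / 64) 11)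
    (hfin : fin S t (posE R m q) k) (hv : v.2.2.2.2 = 0) (hle : ∀ l, ‖H738.le3 R m l v‖ ≤ 1)
    {r : ℝ} (hr : ∀ l, Real.exp (-(q.2.2.1 l) / 2) ≤ r) (hr8 : r ≤ 1 / 8) :
    H578.LogN (fun q => (posE R m q).1) (fun q => PP S t (posE R m q) (shE R m S q) k) q v 0
      (128 * r) := by
  have hr0 : 0 ≤ r := (Real.exp_pos _).le.trans (hr 0)
  have hpos : ∀ q' : Co R m, (posE R m q').2 (k, t) = cpr442 R m ⟨(k, t), by simp [h]⟩ q' :=
    fun q' => H738.pos_ppt_core m h q'
  have hzj := hz ⟨(k, t), by simp [h]⟩ (Set.mem_univ _)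
  obtain ⟨X, DX, hX, hDX, hDv, hfar⟩ : ∃ (X : Co R m → ℂ) (DX : Co R m →L[ℝ] ℂ),
      (∀ q', (PP S t (posE R m q') (shE R m S q') k).1 = X q') ∧ HasFDerivAt X DX q ∧ DX v = 0 ∧
      ∀ l, 1 / 64 ≤ ‖X q - ctr l‖ := by
    have hv0 : cpr442 R m ⟨(k, t), by simp [h]⟩ v = 0 := by rw [cpr442_apply, hv]; rfl
    rcases Bool.eq_false_or_eq_true (S (k, t)) with hs | hs
    · have hne : cpr442 R m ⟨(k, t), by simp [h]⟩ q ≠ 0 := by
        rw [← hpos]
        exact fun h2 => hfin ⟨hs, h2⟩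
      refine ⟨fun q' => (cpr442 R m ⟨(k, t), by simp [h]⟩ q')⁻¹, _, fun q' => ?_,
        ((hasFDerivAt_inv hne).restrictScalars ℝ).comp q
          (cpr442 R m ⟨(k, t), by simp [h]⟩).hasFDerivAt, ?_, fun l => ?_⟩
      · unfold PP Xp
        simp only [hs, if_true]
        rw [hpos]
      · simp [hv0]
      · simp only [hs, if_true] at hzj
        have h1 : ‖cpr442 R m ⟨(k, t), by simp [h]⟩ q‖ ≤ 11⁻¹ := by
          rw [cpr442_apply]
          simpa using hzj
        have h2 : 0 < ‖cpr442 R m ⟨(k, t), by simp [h]⟩ q‖ := norm_pos_iff.2 hne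
        have h3 : (11 : ℝ) ≤ ‖(cpr442 R m ⟨(k, t), by simp [h]⟩ q)⁻¹‖ := by
          rw [norm_inv]
          rw [le_inv_comm₀ (by norm_num) h2]
          exact h1
        have h4 : ‖ctr l‖ ≤ 11 / 2 := by
          fin_cases l <;> simp [ctr] <;> norm_num
        have h5 := norm_sub_norm_le ((cpr442 R m ⟨(k, t), by simp [h]⟩ q)⁻¹) (ctr l)
        linarith
    · refine ⟨fun q' => cpr442 R m ⟨(k, t), by simp [h]⟩ q', _, fun q' => ?_,
        (cpr442 R m ⟨(k, t), by simp [h]⟩).hasFDerivAt, hv0, fun l => ?_⟩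
      · unfold PP Xp
        simp only [hs, Bool.false_eq_true, if_false]
        rw [hpos]
      · simp only [hs, Bool.false_eq_true, if_false] at hzj
        exact hzj.2 l
  have hb : ∀ q' : Co R m, ∀ i, (posE R m q').1 i = H738.rt6 R m q' i := fun q' i =>
    congrFun (rootsL_eq442 q') i
  have hhd : ∀ l, ‖H738.hd (1 / 16) (H738.le3 R m) l q‖ ≤ r / 16 := by
    intro l
    rw [H738.norm_hd_eq]
    linarith [hr l]
  have ht : ∀ i, 1 / 128 ≤ ‖X q - H738.rt6 R m q i‖ := by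
    intro i
    have h1 : X q - ctr (H738.kp i) = (X q - H738.rt6 R m q i) +
        H738.sg6 i * H738.hd (1 / 16) (H738.le3 R m) (H738.kp i) q := by
      unfold H738.rt6 H738.rts; ring
    have h2 := hfar (H738.kp i)
    rw [h1] at h2
    have h3 := norm_add_le (X q - H738.rt6 R m q i)
      (H738.sg6 i * H738.hd (1 / 16) (H738.le3 R m) (H738.kp i) q)
    rw [norm_mul, H738.norm_sig (H738.sg6_sq i), one_mul] at h3
    linarith [hhd (H738.kp i)]
  intro i
  have e1 : (fun q' : Co R m => (PP S t (posE R m q') (shE R m S q') k).1 -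
      (posE R m q').1 i) = fun q' => X q' - H738.rt6 R m q' i := by
    funext q'
    rw [hX, hb]
  have e2 : ∀ i, (PP S t (posE R m q) (shE R m S q) k).1 - (posE R m q).1 i =
      X q - H738.rt6 R m q i := fun i => by rw [hX, hb]
  show ‖fderiv ℝ (fun q' : Co R m => (PP S t (posE R m q') (shE R m S q') k).1 -
    (posE R m q').1 i) q v - 0 * ((PP S t (posE R m q) (shE R m S q) k).1 - (posE R m q).1 i)‖ ≤ _
  have e3 : fderiv ℝ (fun q' => X q' - H738.rt6 R m q' i) q = DX - H738.Drt6 R m q i :=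
    (hDX.sub (H738.hasFDerivAt_rt6 R m q i)).fderiv
  rw [e1, e3]
  simp only [e2]
  have h1 : ‖(DX - H738.Drt6 R m q i) v - 0 * (X q - H738.rt6 R m q i)‖ ≤ r := by
    have h2 : (DX - H738.Drt6 R m q i) v - 0 * (X q - H738.rt6 R m q i) =
        -(H738.Drt6 R m q i v) := by
      show DX v - H738.Drt6 R m q i v - 0 * (X q - H738.rt6 R m q i) = _
      rw [hDv]; ring
    rw [h2, norm_neg]
    have h3 := H738.norm_Drt_le (1 / 16) (H738.le3 R m) H738.kp H738.sg6_sq q i v
    have h4 : ‖H738.hd (1 / 16) (H738.le3 R m) (H738.kp i) q‖ * ‖H738.le3 R m (H738.kp i) v‖ ≤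
        r / 16 * 1 := mul_le_mul (hhd _) (hle _) (norm_nonneg _) (by positivity)
    have h5 : ‖H738.Drt6 R m q i v‖ ≤ ‖H738.hd (1 / 16) (H738.le3 R m) (H738.kp i) q‖ *
        ‖H738.le3 R m (H738.kp i) v‖ / 2 := h3
    linarith
  refine h1.trans ?_
  have hne : X q - H738.rt6 R m q i ≠ 0 := norm_pos_iff.1 (by linarith [ht i])
  refine H738.near_of_le (t := fun i => X q - H738.rt6 R m q i) hne ?_ (by positivity)
  have := ht i
  show r ≤ 128 * r * ‖X q - H738.rt6 R m q i‖
  nlinarith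

end core

/-! ### the dilated points -/

section dil

variable {B : Set (W R m).Fr} {p : Co R m} {S : L → Bool}

/-- the bounded part of the depth -/
def ofs442 (R : H95.Region) (m : ∀ k, Fin (R.n k + 1)) (B : Set (W R m).Fr) (p : Co R m) {j : L}
    {k : Fin 3} (h : R.pl j = Sum.inl k) : ℝ :=
  ∑ g ∈ wreg.bef R.n k (rkF R h), H422.off R m B p g

theorem dep442 {j : L} {k : Fin 3} (h : R.pl j = Sum.inl k) (N : ℝ) :
    wreg.dep m ((W R m).dpt B N p) k (rkF R h) = N * depl R m B p h + ofs442 R m B p h :=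
  H422.dep_dpt R m B N p h

theorem y_dpt442 (N : ℝ) (k : Fin 3) : ((W R m).dpt B N p).2.2.1 k = N * p.2.2.1 k := rfl

theorem es_lt442 {j : L} {k : Fin 3} (h : R.pl j = Sum.inl k)
    (hs : 2 * depl R m B p h < p.2.2.1 k) :
    ES442 fun N => Real.exp (wreg.dep m ((W R m).dpt B N p) k (rkF R h) -
      ((W R m).dpt B N p).2.2.1 k / 2) := by
  refine (es442_exp (a := p.2.2.1 k / 2 - depl R m B p h) (ofs442 R m B p h)
    (by linarith)).mono (Eventually.of_forall fun N => ?_)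
  rw [dep442, y_dpt442]
  refine le_of_eq ?_
  congr 1; ring

theorem es_gt442 {j : L} {k : Fin 3} (h : R.pl j = Sum.inl k)
    (hs : p.2.2.1 k < 2 * depl R m B p h) :
    ES442 fun N => Real.exp (((W R m).dpt B N p).2.2.1 k / 2 -
      wreg.dep m ((W R m).dpt B N p) k (rkF R h)) := by
  refine (es442_exp (a := depl R m B p h - p.2.2.1 k / 2) (-ofs442 R m B p h)
    (by linarith)).mono (Eventually.of_forall fun N => ?_)
  rw [dep442, y_dpt442]
  refine le_of_eq ?_
  congr 1; ring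

theorem es_dep442 {j : L} {k : Fin 3} (h : R.pl j = Sum.inl k) (hs : 0 < depl R m B p h) :
    ES442 fun N => Real.exp (-wreg.dep m ((W R m).dpt B N p) k (rkF R h)) := by
  refine (es442_exp (a := depl R m B p h) (-ofs442 R m B p h) hs).mono
    (Eventually.of_forall fun N => ?_)
  rw [dep442]
  refine le_of_eq ?_
  congr 1; ring

theorem es_cod442 {j : L} {k : Fin 3} (h : R.pl j = Sum.inl k)
    (hs : depl R m B p h < p.2.2.1 k) :
    ES442 fun N => Real.exp (-(((W R m).dpt B N p).2.2.1 k -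
      wreg.dep m ((W R m).dpt B N p) k (rkF R h))) := by
  refine (es442_exp (a := p.2.2.1 k - depl R m B p h) (ofs442 R m B p h)
    (by linarith)).mono (Eventually.of_forall fun N => ?_)
  rw [dep442, y_dpt442]
  refine le_of_eq ?_
  congr 1; ring

/-- the size of the pairs of roots -/
def rr442 (p : Co R m) (N : ℝ) : ℝ := ∑ l : Fin 3, Real.exp (-(N * p.2.2.1 l) / 2)

theorem le_rr442 (N : ℝ) (l : Fin 3) :
    Real.exp (-(((W R m).dpt B N p).2.2.1 l) / 2) ≤ rr442 p N :=
  Finset.single_le_sum (f := fun l => Real.exp (-(N * p.2.2.1 l) / 2))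
    (fun _ _ => (Real.exp_pos _).le) (Finset.mem_univ l)

theorem es_rr442 (hy : ∀ k, 0 < p.2.2.1 k) : ES442 (rr442 p) := by
  have h : ∀ l : Fin 3, ES442 fun N => Real.exp (-(N * p.2.2.1 l) / 2) := fun l =>
    (es442_exp (a := p.2.2.1 l / 2) 0 (half_pos (hy l))).mono (Eventually.of_forall fun N => by
      refine le_of_eq ?_
      congr 1; ring)
  refine ((h 0).add ((h 1).add (h 2))).mono (Eventually.of_forall fun N => ?_)
  unfold rr442
  rw [Fin.sum_univ_three, add_assoc]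

/-- **marks of the cores of the limit do not move** -/
theorem still442 (hS : FarOk R S) (hG : Gen R m S B p) (hy : ∀ k, 0 < p.2.2.1 k) {t : Bool}
    {k : Fin 7} {b : Bool} (hc : H469.Sep.cmp R m B p (k, t) = .core b) {d : BDir R m}
    (hd : d.ok R m B) : ∃ ρ : ℝ → ℝ, ES442 ρ ∧ ∀ᶠ N in atTop,
      fin S t (posE R m ((W R m).dpt B N p)) k →
      H578.LogN (fun q => (posE R m q).1) (fun q => PP S t (posE R m q) (shE R m S q) k)
        ((W R m).dpt B N p) (d.vec R m B p) 0 (ρ N) := by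
  have hA := H422.gen_adm R m S hS B p hG hy 0
  rcases hj : R.pl (k, t) with k' | s
  · have hSj : S (k, t) = false := by
      by_contra h
      rw [Bool.not_eq_false] at h
      have := hS _ h
      rw [hj] at this
      simp at this
    have hne := hG.2.2.2.2.2 (k, t) k' hj
    have h0 := depl_nonneg442 (m := m) hG.1 hj
    have h1 := depl_le442 (m := m) hG.1 hj
    have D := dir1_dir442 hG.1 hy d hj
    rw [H469.Sep.cmp_neck hj] at hc
    by_cases e0 : depl R m B p hj = 0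
    · have hs : 2 * depl R m B p hj < p.2.2.1 k' := by rw [e0, mul_zero]; exact hy k'
      refine ⟨_, ((es_lt442 hj hs).const_mul (by norm_num : (0 : ℝ) ≤ 8)).add
        ((es_cod442 hj (by rw [e0]; exact hy k')).add (es_rr442 hy)), ?_⟩
      filter_upwards [hA, (es_lt442 (B := B) hj hs).ev (by norm_num : (0 : ℝ) < 1 / 2)]
        with N a1 a2 _
      refine logN_of_near442 hSj (near_still_X442 (adm738_442 le_rfl a1) hj (Or.inl ?_) D
        (mX_zero442 hG.1 hy hd hj e0) fun l => le_rr442 N l)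
      rw [H738.norm_qq_mark hj]
      exact a2
    · rw [if_neg e0] at hc
      by_cases e1 : depl R m B p hj = p.2.2.1 k'
      · have hs : p.2.2.1 k' < 2 * depl R m B p hj := by rw [e1]; linarith [hy k']
        refine ⟨_, ((es_gt442 hj hs).const_mul (by norm_num : (0 : ℝ) ≤ 8)).add
          ((es_dep442 hj (by rw [e1]; exact hy k')).add (es_rr442 hy)), ?_⟩
        filter_upwards [hA, (es_gt442 (B := B) hj hs).ev (by norm_num : (0 : ℝ) < 1 / 2)]
          with N a1 a2 _
        refine logN_of_near442 hSj (near_still_Y442 (adm738_442 le_rfl a1) hj (Or.inr ?_) D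
          (mY_zero442 hG.1 hy hd hj e1) fun l => le_rr442 N l)
        rw [H738.norm_qq_mark hj, ← Real.exp_neg, neg_sub]
        exact a2
      · rw [if_neg e1] at hc
        cases hc
  · refine ⟨_, (es_rr442 hy).const_mul (by norm_num : (0 : ℝ) ≤ 128), ?_⟩
    filter_upwards [(es_rr442 hy).ev (by norm_num : (0 : ℝ) < 1 / 8)] with N a1 hf
    exact core_logN442 (q := (W R m).dpt B N p) hj hG.2.2.2.2.1 hf (dir_core442 d)
      (fun l => norm_lS_dir442 hG.1 hy d subset_rfl) (fun l => le_rr442 N l) a1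

/-- the common logarithmic derivative of the marks of the neck `k` at depth `s` -/
def zt442 (p : Co R m) {j : L} {k : Fin 3} (h : R.pl j = Sum.inl k) (s : ℝ) (w : Co R m) : ℂ :=
  open Classical in if 2 * s < p.2.2.1 k then H738.mX m h w else H738.mY m h w

/-- **marks of the necks of the limit move rigidly** -/
theorem rigid442 (hS : FarOk R S) (hG : Gen R m S B p) (hy : ∀ k, 0 < p.2.2.1 k) {t : Bool}
    {k : Fin 7} {k' : Fin 3} (hj : R.pl (k, t) = Sum.inl k') (e0 : depl R m B p hj ≠ 0)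
    (e1 : depl R m B p hj ≠ p.2.2.1 k') (d : BDir R m) :
    ∃ ρ : ℝ → ℝ, ES442 ρ ∧ ∀ᶠ N in atTop,
      H578.LogN (fun q => (posE R m q).1) (fun q => PP S t (posE R m q) (shE R m S q) k)
        ((W R m).dpt B N p) (d.vec R m B p)
        (zt442 p hj (depl R m B p hj) (d.vec R m B p)) (ρ N) := by
  have hA := H422.gen_adm R m S hS B p hG hy 0
  have hSj : S (k, t) = false := by
    by_contra h
    rw [Bool.not_eq_false] at h
    have := hS _ h
    rw [hj] at this
    simp at this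
  have hne := hG.2.2.2.2.2 (k, t) k' hj
  have h0 := lt_of_le_of_ne (depl_nonneg442 (m := m) hG.1 hj) (Ne.symm e0)
  have h1 := lt_of_le_of_ne (depl_le442 (m := m) hG.1 hj) e1
  have D := dir1_dir442 hG.1 hy d hj
  rcases lt_or_gt_of_ne hne with hs | hs
  · refine ⟨_, ((es_lt442 hj hs).const_mul (by norm_num : (0 : ℝ) ≤ 8)).add
      ((((es_dep442 hj h0).add (es_cod442 hj h1)).sq fun N => by positivity).const_mul
        (by norm_num : (0 : ℝ) ≤ 5 / 2)), ?_⟩
    filter_upwards [hA, (es_lt442 (B := B) hj hs).ev (by norm_num : (0 : ℝ) < 1 / 2)]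
      with N a1 a2
    unfold zt442
    rw [if_pos hs]
    refine logN_of_near442 hSj (near_rigid_X442 (adm738_442 le_rfl a1) hj (Or.inl ?_) D)
    rw [H738.norm_qq_mark hj]
    exact a2
  · refine ⟨_, ((es_gt442 hj hs).const_mul (by norm_num : (0 : ℝ) ≤ 8)).add
      ((((es_dep442 hj h0).add (es_cod442 hj h1)).sq fun N => by positivity).const_mul
        (by norm_num : (0 : ℝ) ≤ 5 / 2)), ?_⟩
    filter_upwards [hA, (es_gt442 (B := B) hj hs).ev (by norm_num : (0 : ℝ) < 1 / 2)]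
      with N a1 a2
    unfold zt442
    rw [if_neg (not_lt.2 hs.le)]
    refine logN_of_near442 hSj (near_rigid_Y442 (adm738_442 le_rfl a1) hj (Or.inr ?_) D)
    rw [H738.norm_qq_mark hj, ← Real.exp_neg, neg_sub]
    exact a2

/-- **two marks of the same component have the same logarithmic derivative** -/
theorem same442 (hS : FarOk R S) (hG : Gen R m S B p) (hy : ∀ k, 0 < p.2.2.1 k) {t : Bool}
    {k l : Fin 7} (hc : H469.Sep.cmp R m B p (k, t) = H469.Sep.cmp R m B p (l, t))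
    {d : BDir R m} (hd : d.ok R m B) : ∃ C c : ℝ, 0 ≤ C ∧ 0 < c ∧ ∀ᶠ N : ℝ in atTop,
      fin S t (posE R m ((W R m).dpt B N p)) k → fin S t (posE R m ((W R m).dpt B N p)) l →
      ∃ ζ : ℂ, H578.LogN (fun q => (posE R m q).1)
          (fun q => PP S t (posE R m q) (shE R m S q) k) ((W R m).dpt B N p)
          (d.vec R m B ((W R m).dpt B N p)) ζ (C * Real.exp (-c * N)) ∧
        H578.LogN (fun q => (posE R m q).1)
          (fun q => PP S t (posE R m q) (shE R m S q) l) ((W R m).dpt B N p)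
          (d.vec R m B ((W R m).dpt B N p)) ζ (C * Real.exp (-c * N)) := by
  obtain ⟨ζ, ρ, ρ', hρ, hρ', h, h'⟩ : ∃ (ζ : ℂ) (ρ ρ' : ℝ → ℝ), ES442 ρ ∧ ES442 ρ' ∧
      (∀ᶠ N in atTop, fin S t (posE R m ((W R m).dpt B N p)) k →
        H578.LogN (fun q => (posE R m q).1) (fun q => PP S t (posE R m q) (shE R m S q) k)
          ((W R m).dpt B N p) (d.vec R m B p) ζ (ρ N)) ∧
      (∀ᶠ N in atTop, fin S t (posE R m ((W R m).dpt B N p)) l →
        H578.LogN (fun q => (posE R m q).1) (fun q => PP S t (posE R m q) (shE R m S q) l)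
          ((W R m).dpt B N p) (d.vec R m B p) ζ (ρ' N)) := by
    rcases hb : H469.Sep.cmp R m B p (k, t) with b | ⟨k', s⟩
    · obtain ⟨ρ, hρ, h⟩ := still442 hS hG hy hb hd
      obtain ⟨ρ', hρ', h'⟩ := still442 hS hG hy (hc.symm.trans hb) hd
      exact ⟨0, ρ, ρ', hρ, hρ', h, h'⟩
    · have key : ∀ i : Fin 7, H469.Sep.cmp R m B p (i, t) = .nk k' s →
          ∃ h : R.pl (i, t) = Sum.inl k', depl R m B p h = s ∧ depl R m B p h ≠ 0 ∧
            depl R m B p h ≠ p.2.2.1 k' := by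
        intro i hi
        obtain ⟨b', hj⟩ : ∃ b', R.pl (i, t) = b' := ⟨_, rfl⟩
        rcases b' with k'' | b
        · rw [H469.Sep.cmp_neck hj] at hi
          split_ifs at hi with h1 h2
          · injection hi with h3 h4
            subst h3
            exact ⟨hj, h4, h1, h2⟩
        · rw [H469.Sep.cmp_core hj] at hi
          cases hi
      obtain ⟨hk, a1, a2, a3⟩ := key k hb
      obtain ⟨hl, b1, b2, b3⟩ := key l (hc.symm.trans hb)
      obtain ⟨ρ, hρ, h⟩ := rigid442 hS hG hy hk a2 a3 d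
      obtain ⟨ρ', hρ', h'⟩ := rigid442 hS hG hy hl b2 b3 d
      have e : zt442 p hl (depl R m B p hl) (d.vec R m B p) =
          zt442 p hk (depl R m B p hk) (d.vec R m B p) := by
        unfold zt442
        rw [a1, b1, mX_eq442 hG.1 hy hd hl hk (b1.trans a1.symm),
          mY_eq442 hG.1 hy hd hl hk (b1.trans a1.symm)]
      rw [e] at h'
      exact ⟨_, ρ, ρ', hρ, hρ', h.mono fun N hN _ => hN, h'.mono fun N hN _ => hN⟩
  obtain ⟨C, c, hC, hc0, h1⟩ := hρ
  obtain ⟨C', c', hC', hc0', h2⟩ := hρ'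
  refine ⟨C + C', min c c', by positivity, lt_min hc0 hc0', ?_⟩
  filter_upwards [h, h', h1, h2, eventually_gt_atTop 0] with N a b a1 b1 hN hk hl
  rw [vec_dpt442 d hN.ne']
  have e1 : Real.exp (-(c * N)) ≤ Real.exp (-min c c' * N) :=
    Real.exp_le_exp.2 (by nlinarith [min_le_left c c'])
  have e2 : Real.exp (-(c' * N)) ≤ Real.exp (-min c c' * N) :=
    Real.exp_le_exp.2 (by nlinarith [min_le_right c c'])
  have e3 : 0 ≤ Real.exp (-min c c' * N) := (Real.exp_pos _).le
  exact ⟨ζ, LogN442.mono (a hk) (a1.trans (by nlinarith)),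
    LogN442.mono (b hl) (b1.trans (by nlinarith))⟩

end dil

end Vale.Agent.P273.H442

end
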